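import Vale.Agent.P220.R2.H481.HFlow
import Vale.Agent.P220.R2.H57.Ret

/-!
# Exact isotopies extend to Hamiltonian isotopies
-/

open Set Filter Topology
open scoped ContDiff RealInnerProductSpace NNReal

namespace Vale.Agent.P220.R2.H481

set_option linter.unusedSectionVars false

open H57 (IsRet Tn Tan Cot linSolve)

variable {E : Type} [NormedAddCommGroup E] [InnerProductSpace ℝ E] [FiniteDimensional ℝ E]

/-! ## Comparison of the two sets of definitions -/

theorem tan_eq_Tan {F : Type} [NormedAddCommGroup F] [NormedSpace ℝ F] (K : Set F) (x : F) :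
    tan K x = Tan K x := by
  ext v
  constructor
  · rintro ⟨γ, h1, h2, h3, h4⟩
    exact ⟨γ, h1, h2, h3, h4.deriv⟩
  · rintro ⟨γ, h1, h2, h3, h4⟩
    refine ⟨γ, h1, h2, h3, ?_⟩
    rw [← h4]
    exact (h1.differentiable (by simp) 0).hasDerivAt

theorem cotangent_eq_Cot (Q : Set E) : cotangent Q = Cot Q := by
  ext z
  simp only [cotangent, Cot, tan_eq_Tan]

/-- the orthogonal projections onto the tangent spaces of a retract -/
theorem exists_proj_of_isRet {Q U : Set E} {r : E → E} (hQ : IsRet Q U r) :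
    ∃ P, IsProj Q P := by
  -- solve `w = A w`, `⟪w - v, A u⟫ = 0` for all `u`, where `A = dr_q`
  have hD : ContDiff ℝ ∞ (fderiv ℝ r) := hQ.smooth.fderiv_right (m := ∞) (by simp)
  obtain ⟨J, hJ⟩ : ∃ J : E →L[ℝ] (E →L[ℝ] ℝ), ∀ v w, J v w = ⟪v, w⟫ :=
    ⟨innerSL ℝ, fun v w => rfl⟩
  set T : E × E → E →L[ℝ] (E × (E →L[ℝ] ℝ)) := fun p =>
    (ContinuousLinearMap.id ℝ E - fderiv ℝ r p.1).prod
      (J.comp (fderiv ℝ r p.1)).flip with hT
  have hTs : ContDiff ℝ ∞ T := by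
    have h1 : ContDiff ℝ ∞ fun p : E × E => fderiv ℝ r p.1 := hD.comp contDiff_fst
    have h2 : ContDiff ℝ ∞ fun p : E × E => (J.comp (fderiv ℝ r p.1)).flip := by
      have hfl : ContDiff ℝ ∞
          (ContinuousLinearMap.flip : (E →L[ℝ] E →L[ℝ] ℝ) → (E →L[ℝ] E →L[ℝ] ℝ)) := by
        have h0 := LinearIsometryEquiv.contDiff (𝕜 := ℝ) (E := E →L[ℝ] E →L[ℝ] ℝ)
          (F := E →L[ℝ] E →L[ℝ] ℝ) (n := ∞) (ContinuousLinearMap.flipₗᵢ ℝ E E ℝ)
        exact h0
      exact hfl.comp (contDiff_const.clm_comp h1)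
    have h3 : ContDiff ℝ ∞ fun p : E × E => ContinuousLinearMap.id ℝ E - fderiv ℝ r p.1 :=
      contDiff_const.sub h1
    have h5 : T = fun p => (ContinuousLinearMap.inl ℝ E (E →L[ℝ] ℝ)).comp
        (ContinuousLinearMap.id ℝ E - fderiv ℝ r p.1) +
        (ContinuousLinearMap.inr ℝ E (E →L[ℝ] ℝ)).comp
          (J.comp (fderiv ℝ r p.1)).flip := by
      funext p
      ext w
      · simp [hT]
      · simp [hT]
    rw [h5]
    exact (contDiff_const.clm_comp h3).add (contDiff_const.clm_comp h2)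
  set y : E × E → E × (E →L[ℝ] ℝ) := fun p => (0, (J p.2).comp (fderiv ℝ r p.1)) with hy
  have hys : ContDiff ℝ ∞ y := by
    have h1 : ContDiff ℝ ∞ fun p : E × E => fderiv ℝ r p.1 := hD.comp contDiff_fst
    exact contDiff_const.prodMk ((J.contDiff.comp contDiff_snd).clm_comp h1)
  have hTa : ∀ p w, T p w = (w - fderiv ℝ r p.1 w, (J w).comp (fderiv ℝ r p.1)) := by
    intro p w
    refine Prod.ext rfl ?_
    ext u
    show J (fderiv ℝ r p.1 u) w = J w (fderiv ℝ r p.1 u)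
    rw [hJ, hJ, real_inner_comm]
  have hkey : ∀ q ∈ Q, ∀ w : E, fderiv ℝ r q w = w → (∀ u, ⟪w, fderiv ℝ r q u⟫ = 0) → w = 0 := by
    intro q hq w h1 h2
    have := h2 w
    rw [h1] at this
    exact inner_self_eq_zero.1 this
  obtain ⟨f, hf, hfs⟩ := linSolve (S := Q ×ˢ (univ : Set E)) (hQ.isClosed.prod isClosed_univ)
    hTs hys (by
      rintro ⟨q, v⟩ ⟨hq, -⟩ w hw
      rw [hTa, Prod.mk_eq_zero] at hw
      refine hkey q hq w (sub_eq_zero.1 hw.1).symm fun u => ?_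
      have := congrArg (fun C : E →L[ℝ] ℝ => C u) hw.2
      simp only [ContinuousLinearMap.comp_apply, hJ, zero_apply] at this
      exact this) (by
      rintro ⟨q, v⟩ ⟨hq, -⟩
      -- existence: the orthogonal projection onto the tangent space
      set W : Submodule ℝ E := Tn r q
      refine ⟨W.starProjection v, ?_⟩
      rw [hTa, hy]
      have hm : W.starProjection v ∈ W := Submodule.starProjection_apply_mem _ _
      refine Prod.ext (sub_eq_zero.2 ((show fderiv ℝ r q (W.starProjection v) =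
        W.starProjection v from hm)).symm) ?_
      ext u
      show J (W.starProjection v) (fderiv ℝ r q u) = J v (fderiv ℝ r q u)
      rw [hJ, hJ]
      have h1 := W.starProjection_inner_eq_zero v _ (hQ.fderiv_mem hq u)
      rw [inner_sub_left] at h1
      linarith)
  have hf1 : ∀ q ∈ Q, ∀ v, fderiv ℝ r q (f (q, v)) = f (q, v) := by
    intro q hq v
    have := hfs (q, v) ⟨hq, mem_univ _⟩
    rw [hTa] at this
    exact (sub_eq_zero.1 (congrArg Prod.fst this)).symm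
  have hf2 : ∀ q ∈ Q, ∀ v u, ⟪f (q, v), fderiv ℝ r q u⟫ = ⟪v, fderiv ℝ r q u⟫ := by
    intro q hq v u
    have := hfs (q, v) ⟨hq, mem_univ _⟩
    rw [hTa] at this
    have := congrArg (fun C : E × (E →L[ℝ] ℝ) => C.2 u) this
    simp only [hy, ContinuousLinearMap.comp_apply, hJ] at this
    exact this
  let b := stdOrthonormalBasis ℝ E
  set P : E → E →L[ℝ] E := fun q => ∑ i, (innerSL ℝ (b i) : E →L[ℝ] ℝ).smulRight (f (q, b i))
    with hP
  have hPs : ContDiff ℝ ∞ P := by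
    refine ContDiff.sum fun i _ => ?_
    have h1 : ContDiff ℝ ∞ fun q => f (q, b i) := hf.comp (contDiff_id.prodMk contDiff_const)
    exact contDiff_const.smulRight h1
  have hPa : ∀ q v, P q v = ∑ i, (⟪b i, v⟫ : ℝ) • f (q, b i) := by
    intro q v
    simp [hP]
  have e1 : ∀ q ∈ Q, ∀ v, fderiv ℝ r q (P q v) = P q v := by
    intro q hq v
    rw [hPa, map_sum]
    refine Finset.sum_congr rfl fun i _ => ?_
    rw [map_smul, hf1 q hq]
  have e2 : ∀ q ∈ Q, ∀ v u, ⟪P q v, fderiv ℝ r q u⟫ = ⟪v, fderiv ℝ r q u⟫ := by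
    intro q hq v u
    conv_rhs => rw [← b.sum_repr' v]
    rw [hPa, sum_inner, sum_inner]
    refine Finset.sum_congr rfl fun i _ => ?_
    rw [inner_smul_left, inner_smul_left, hf2 q hq]
  refine ⟨P, hPs, fun q hq v => ?_, fun q hq v hv => ?_, fun q hq v w => ?_⟩
  · rw [tan_eq_Tan, hQ.mem_Tan hq]
    exact e1 q hq v
  · rw [tan_eq_Tan, hQ.mem_Tan hq] at hv
    have hv' : fderiv ℝ r q v = v := hv
    have := hkey q hq (P q v - v) (by rw [map_sub, e1 q hq, hv']) (fun u => by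
      rw [inner_sub_left, e2 q hq, sub_self])
    exact sub_eq_zero.1 this
  · calc ⟪P q v, w⟫ = ⟪w, fderiv ℝ r q (P q v)⟫ := by rw [e1 q hq, real_inner_comm]
      _ = ⟪P q w, fderiv ℝ r q (P q v)⟫ := (e2 q hq w _).symm
      _ = ⟪P q v, fderiv ℝ r q (P q w)⟫ := by rw [e1 q hq, e1 q hq, real_inner_comm]
      _ = ⟪v, fderiv ℝ r q (P q w)⟫ := e2 q hq v _
      _ = ⟪v, P q w⟫ := by rw [e1 q hq]

/-- `ω` is nondegenerate on `T*Q` -/
theorem IsProj.nondeg {Q : Set E} {P : E → E →L[ℝ] E} (hP : IsProj Q P) {z v : E × E}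
    (hz : z ∈ cotangent Q) (hv : v ∈ tan (cotangent Q) z)
    (h : ∀ w ∈ tan (cotangent Q) z, om v w = 0) : v = 0 := by
  obtain ⟨h1, h2⟩ := hP.tan_cotangent hv
  have h0 : (0 : E) ∈ tan Q z.1 :=
    ⟨fun _ => z.1, contDiff_const, fun _ => hz.1, rfl, hasDerivAt_const _ _⟩
  have e1 : v.1 = 0 := by
    have h3 := h _ (hP.mem_tan_cotangent hz h0 v.1)
    simp only [om, map_zero, zero_apply, zero_add, inner_zero_right, zero_sub,
      neg_eq_zero] at h3
    rw [hP.id _ hz.1 _ h1] at h3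
    exact inner_self_eq_zero.1 h3
  have e2 : v.2 = P z.1 v.2 := by
    rw [e1] at h2
    simpa using h2
  have h4 := h _ (hP.mem_tan_cotangent hz (hP.mem _ hz.1 v.2) 0)
  simp only [om, e1, inner_zero_right, sub_zero] at h4
  rw [← e2] at h4
  exact Prod.ext e1 (inner_self_eq_zero.1 h4)

theorem tan_sub_cotangent {Q : Set E} {P : E → E →L[ℝ] E} (hP : IsProj Q P) {z v w : E × E}
    (hz : z ∈ cotangent Q) (hadd : ∀ a ∈ tan Q z.1, ∀ b ∈ tan Q z.1, a - b ∈ tan Q z.1)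
    (hv : v ∈ tan (cotangent Q) z) (hw : w ∈ tan (cotangent Q) z) :
    v - w ∈ tan (cotangent Q) z := by
  obtain ⟨h1, h2⟩ := hP.tan_cotangent hv
  obtain ⟨h3, h4⟩ := hP.tan_cotangent hw
  have h5 := hP.mem_tan_cotangent hz (hadd _ h1 _ h3) (v.2 - w.2)
  have e : (v.1 - w.1, fderiv ℝ P z.1 (v.1 - w.1) z.2 + P z.1 (v.2 - w.2)) = v - w := by
    refine Prod.ext rfl ?_
    calc fderiv ℝ P z.1 (v.1 - w.1) z.2 + P z.1 (v.2 - w.2) =
        (fderiv ℝ P z.1 v.1 z.2 + P z.1 v.2) - (fderiv ℝ P z.1 w.1 z.2 + P z.1 w.2) := by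
          rw [map_sub, map_sub, sub_apply, add_sub_add_comm]
      _ = v.2 - w.2 := (congrArg₂ (fun a b => a - b) h2 h4).symm
  rwa [e] at h5

theorem second_symm' {E F : Type*} [NormedAddCommGroup E] [NormedSpace ℝ E]
    [NormedAddCommGroup F] [NormedSpace ℝ F] {f : E → F} (hf : ContDiff ℝ ∞ f) (y a b : E) :
    fderiv ℝ (fderiv ℝ f) y a b = fderiv ℝ (fderiv ℝ f) y b a := by
  have h : IsSymmSndFDerivAt ℝ f y := hf.contDiffAt.isSymmSndFDerivAt
    (by simpa using (WithTop.coe_le_coe.2 le_top : ((2 : ℕ∞) : WithTop ℕ∞) ≤ ∞))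
  exact h a b

/-- derivative of a directional derivative along a line -/
theorem hasDerivAt_fderiv_line' {E F : Type*} [NormedAddCommGroup E] [NormedSpace ℝ E]
    [NormedAddCommGroup F] [NormedSpace ℝ F] {f : E → F} (hf : ContDiff ℝ ∞ f) {c : ℝ → E}
    {s : ℝ} {a : E} (hc : HasDerivAt c a s) (b : E) :
    HasDerivAt (fun r => fderiv ℝ f (c r) b) (fderiv ℝ (fderiv ℝ f) (c s) a b) s := by
  have h1 : ContDiff ℝ ∞ (fderiv ℝ f) := hf.fderiv_right (by simp)
  have h2 := (h1.differentiable (by simp) (c s)).hasFDerivAt.comp_hasDerivAt s hc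
  have h3 := h2.clm_apply (hasDerivAt_const s b)
  simpa using h3

theorem hasDerivAt_fst {c : ℝ → E × E} {c' : E × E} {t : ℝ} (h : HasDerivAt c c' t) :
    HasDerivAt (fun t => (c t).1) c'.1 t := h.fst

theorem hasDerivAt_snd {c : ℝ → E × E} {c' : E × E} {t : ℝ} (h : HasDerivAt c c' t) :
    HasDerivAt (fun t => (c t).2) c'.2 t := h.snd

/-- The Hamiltonian that generates the isotopy `ι` of `L`, near the image. -/
noncomputable def genH (ι : ℝ × (E × E) → E × E) (f : ℝ × (E × E) → ℝ)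
    (m : ℝ × (E × E) → E × E) : ℝ × (E × E) → ℝ := fun x =>
  (⟪(ι (x.1, m x)).2, (fderiv ℝ ι (x.1, m x) (1, 0)).1⟫ - fderiv ℝ f (x.1, m x) (1, 0)) +
  (⟪x.2.2 - (ι (x.1, m x)).2, (fderiv ℝ ι (x.1, m x) (1, 0)).1⟫ -
    ⟪(fderiv ℝ ι (x.1, m x) (1, 0)).2, x.2.1 - (ι (x.1, m x)).1⟫)

theorem genH_smooth {ι : ℝ × (E × E) → E × E} {f : ℝ × (E × E) → ℝ}
    {m : ℝ × (E × E) → E × E} (hι : ContDiff ℝ ∞ ι) (hf : ContDiff ℝ ∞ f)
    (hm : ContDiff ℝ ∞ m) : ContDiff ℝ ∞ (genH ι f m) := by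
  have h1 : ContDiff ℝ ∞ fun x : ℝ × (E × E) => (x.1, m x) := contDiff_fst.prodMk hm
  have h2 : ContDiff ℝ ∞ fun x : ℝ × (E × E) => ι (x.1, m x) := hι.comp h1
  have h3 : ContDiff ℝ ∞ fun x : ℝ × (E × E) => fderiv ℝ ι (x.1, m x) (1, 0) :=
    ((hι.fderiv_right (m := ∞) (by simp)).comp h1).clm_apply contDiff_const
  have h4 : ContDiff ℝ ∞ fun x : ℝ × (E × E) => fderiv ℝ f (x.1, m x) (1, 0) :=
    ((hf.fderiv_right (m := ∞) (by simp)).comp h1).clm_apply contDiff_const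
  unfold genH
  refine ((ContDiff.inner ℝ h2.snd h3.fst).sub h4).add ((ContDiff.inner ℝ ?_ h3.fst).sub
    (ContDiff.inner ℝ h3.snd ?_))
  · exact (contDiff_snd.comp contDiff_snd).sub h2.snd
  · exact (contDiff_fst.comp contDiff_snd).sub h2.fst

/-- the differential of the generating Hamiltonian along the isotopy -/
theorem genH_fderiv {ι : ℝ × (E × E) → E × E} {f : ℝ × (E × E) → ℝ}
    {m : ℝ × (E × E) → E × E} (hι : ContDiff ℝ ∞ ι) (hf : ContDiff ℝ ∞ f)
    (hm : ContDiff ℝ ∞ m) {s : ℝ} {z : E × E} (hmz : m (s, ι (s, z)) = z) {u v : E × E}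
    (hmv : fderiv ℝ m (s, ι (s, z)) (0, u) = v)
    (hex : ∀ r, fderiv ℝ f (r, z) (0, v) = ⟪(ι (r, z)).2, (fderiv ℝ ι (r, z) (0, v)).1⟫) :
    fderiv ℝ (fun y => genH ι f m (s, y)) (ι (s, z)) u =
      om u (fderiv ℝ ι (s, z) (1, 0)) := by
  set w₀ := ι (s, z) with hw₀
  set a := fderiv ℝ ι (s, z) (1, 0) with ha
  -- the curve `t ↦ w₀ + t u`
  have hline : HasDerivAt (fun t : ℝ => w₀ + t • u) u 0 := by
    have := ((hasDerivAt_id (0 : ℝ)).smul_const u).const_add w₀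
    simpa using this
  have hline2 : HasDerivAt (fun t : ℝ => ((s, w₀ + t • u) : ℝ × (E × E))) (0, u) 0 :=
    (hasDerivAt_const _ _).prodMk hline
  have e0 : ((s, w₀ + (0 : ℝ) • u) : ℝ × (E × E)) = (s, w₀) := by rw [zero_smul, add_zero]
  have hM : HasDerivAt (fun t : ℝ => m (s, w₀ + t • u)) v 0 := by
    have h1 := (hm.differentiable (by simp) (s, w₀ + (0 : ℝ) • u)).hasFDerivAt.comp_hasDerivAt 0
      hline2
    rw [e0, hmv] at h1
    exact h1
  have hN : HasDerivAt (fun t : ℝ => ((s, m (s, w₀ + t • u)) : ℝ × (E × E))) (0, v) 0 :=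
    (hasDerivAt_const _ _).prodMk hM
  have en : ((s, m (s, w₀ + (0 : ℝ) • u)) : ℝ × (E × E)) = (s, z) := by
    rw [zero_smul, add_zero, hmz]
  have hI : HasDerivAt (fun t : ℝ => ι (s, m (s, w₀ + t • u))) (fderiv ℝ ι (s, z) (0, v)) 0 := by
    have h1 := (hι.differentiable (by simp) (s, m (s, w₀ + (0 : ℝ) • u))).hasFDerivAt.comp_hasDerivAt
      0 hN
    rw [en] at h1
    exact h1
  have hA : HasDerivAt (fun t : ℝ => fderiv ℝ ι (s, m (s, w₀ + t • u)) (1, 0))
      (fderiv ℝ (fderiv ℝ ι) (s, z) (0, v) (1, 0)) 0 := by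
    have h1 := hasDerivAt_fderiv_line' hι hN (1, 0)
    rw [en] at h1
    exact h1
  have hF : HasDerivAt (fun t : ℝ => fderiv ℝ f (s, m (s, w₀ + t • u)) (1, 0))
      (fderiv ℝ (fderiv ℝ f) (s, z) (0, v) (1, 0)) 0 := by
    have h1 := hasDerivAt_fderiv_line' hf hN (1, 0)
    rw [en] at h1
    exact h1
  -- differentiate the exactness relation in time
  have hrel : fderiv ℝ (fderiv ℝ f) (s, z) (1, 0) (0, v) =
      ⟪(ι (s, z)).2, (fderiv ℝ (fderiv ℝ ι) (s, z) (1, 0) (0, v)).1⟫ +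
        ⟪a.2, (fderiv ℝ ι (s, z) (0, v)).1⟫ := by
    have hc : HasDerivAt (fun r : ℝ => ((r, z) : ℝ × (E × E))) (1, 0) s :=
      (hasDerivAt_id s).prodMk (hasDerivAt_const _ _)
    have h1 := hasDerivAt_fderiv_line' hf hc (0, v)
    have h2 := hasDerivAt_fderiv_line' hι hc (0, v)
    have h3 : HasDerivAt (fun r : ℝ => ι (r, z)) a s :=
      (hι.differentiable (by simp) (s, z)).hasFDerivAt.comp_hasDerivAt s hc
    have h4 := (hasDerivAt_snd h3).inner ℝ (hasDerivAt_fst h2)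
    have h5 : (fun r : ℝ => fderiv ℝ f (r, z) (0, v)) =
        fun r => ⟪(ι (r, z)).2, (fderiv ℝ ι (r, z) (0, v)).1⟫ := funext hex
    rw [h5] at h1
    exact h1.unique h4
  have hG := (genH_smooth hι hf hm).differentiable (by simp) (s, w₀)
  have h1 : HasDerivAt (fun t : ℝ => genH ι f m (s, w₀ + t • u))
      (fderiv ℝ (fun y => genH ι f m (s, y)) w₀ u) 0 := by
    have hd : DifferentiableAt ℝ (fun y => genH ι f m (s, y)) w₀ :=
      ((genH_smooth hι hf hm).comp (contDiff_const.prodMk contDiff_id)).differentiable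
        (by simp) w₀
    have h2 : HasFDerivAt (fun y => genH ι f m (s, y)) (fderiv ℝ (fun y => genH ι f m (s, y)) w₀)
        (w₀ + (0 : ℝ) • u) := by
      rw [zero_smul, add_zero]
      exact hd.hasFDerivAt
    exact h2.comp_hasDerivAt 0 hline
  refine h1.unique ?_
  have k1 := ((hasDerivAt_snd hI).inner ℝ (hasDerivAt_fst hA)).sub hF
  have k2 := ((hasDerivAt_snd hline).fun_sub (hasDerivAt_snd hI)).inner ℝ (hasDerivAt_fst hA)
  have k3 := (hasDerivAt_snd hA).inner ℝ ((hasDerivAt_fst hline).fun_sub (hasDerivAt_fst hI))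
  have k4 := k1.add (k2.sub k3)
  refine (k4.congr_deriv ?_)
  simp only [zero_smul, add_zero, hmz]
  rw [second_symm' hf, second_symm' hι, hrel]
  simp only [om, ← hw₀, ← ha, sub_self, inner_zero_left, inner_zero_right, inner_sub_left,
    inner_sub_right]
  ring

theorem om_swap (u v : E × E) : om u v = - om v u := by
  simp only [om]
  ring

theorem om_sub_left (u v w : E × E) : om (u - v) w = om u w - om v w := by
  simp only [om, Prod.fst_sub, Prod.snd_sub, inner_sub_left, inner_sub_right]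
  ring

/-- **Exact isotopies extend to Hamiltonian isotopies.** -/
theorem ham_ext {Q UQ : Set E} {r : E → E} (hQ : IsRet Q UQ r) (cQ : IsCompact Q)
    {L UL : Set (E × E)} {ρ : E × E → E × E} (hL : IsRet L UL ρ) (cL : IsCompact L)
    {ι : ℝ × (E × E) → E × E} (hι : ContDiff ℝ ∞ ι)
    (hmem : ∀ s, ∀ z ∈ L, ι (s, z) ∈ Cot Q)
    (hinj : ∀ s, ∀ z ∈ L, ∀ z' ∈ L, ι (s, z) = ι (s, z') → z = z')
    (himm : ∀ s, ∀ z ∈ L, ∀ v ∈ Tn ρ z, fderiv ℝ ι (s, z) (0, v) = 0 → v = 0)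
    {f : ℝ × (E × E) → ℝ} (hf : ContDiff ℝ ∞ f)
    (hex : ∀ s, ∀ z ∈ L, ∀ v ∈ Tn ρ z,
      fderiv ℝ f (s, z) (0, v) = inner ℝ (ι (s, z)).2 (fderiv ℝ ι (s, z) (0, v)).1) :
    ∃ (H : ℝ × (E × E) → ℝ) (φ : ℝ → E × E → E × E), H57.IsHam Q H ∧ H57.IsHamFlow Q H φ ∧
      ∀ s ∈ Icc (0 : ℝ) 1, ∀ z ∈ L, φ s (ι (0, z)) = ι (s, z) := by
  obtain ⟨μ, hμ, hμι⟩ := hL.exists_leftInv cL hι hinj himm
  set m : ℝ × (E × E) → E × E := fun x => ρ (μ x) with hm
  have hms : ContDiff ℝ ∞ m := hL.smooth.comp hμ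
  have hmι : ∀ s, ∀ z ∈ L, m (s, ι (s, z)) = z := fun s z hz => by
    simp only [hm]
    rw [hμι s z hz, hL.fix z hz]
  have hmv : ∀ s, ∀ z ∈ L, ∀ u, fderiv ℝ m (s, ι (s, z)) (0, u) ∈ Tn ρ z := by
    intro s z hz u
    have h1 : HasFDerivAt m ((fderiv ℝ ρ (μ (s, ι (s, z)))).comp (fderiv ℝ μ (s, ι (s, z))))
        (s, ι (s, z)) :=
      (hL.hasFDerivAt _).comp _ (hμ.differentiable (by simp) _).hasFDerivAt
    rw [h1.fderiv, hμι s z hz]
    exact hL.fderiv_mem hz _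
  -- a bound for the momenta
  obtain ⟨C, hC⟩ : ∃ C : ℝ, ∀ s ∈ Icc (0 : ℝ) 1, ∀ z ∈ L, ‖(ι (s, z)).2‖ ≤ C := by
    obtain ⟨C, hC⟩ := ((isCompact_Icc (a := (0 : ℝ)) (b := 1)).prod cL).exists_bound_of_continuousOn
      (f := fun x => (ι x).2) (continuous_snd.comp hι.continuous).continuousOn
    exact ⟨C, fun s hs z hz => hC (s, z) ⟨hs, hz⟩⟩
  have hC1 : 0 < |C| + 1 := by positivity
  let χ : ContDiffBump (0 : E) := ⟨|C| + 1, |C| + 2, hC1, by linarith⟩
  have hGs := genH_smooth hι hf hms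
  set H : ℝ × (E × E) → ℝ := fun x => χ x.2.2 * genH ι f m x with hH
  have hHs : ContDiff ℝ ∞ H :=
    (χ.contDiff.comp (contDiff_snd.comp contDiff_snd)).mul hGs
  have hH0 : ∀ s z, |C| + 2 ≤ ‖z.2‖ → H (s, z) = 0 := by
    intro s z hz
    have : χ z.2 = 0 := χ.zero_of_le_dist (by rwa [dist_zero_right])
    simp [hH, this]
  have hH1 : H57.IsHam Q H := ⟨hHs, |C| + 2, fun s z _ hz => hH0 s z hz⟩
  have hH2 : IsHam Q H := by
    refine ⟨hHs, Q ×ˢ Metric.closedBall (0 : E) (|C| + 2),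
      cQ.prod (isCompact_closedBall _ _), fun s z hz hzK => hH0 s z ?_⟩
    by_contra hcon
    refine hzK ⟨hz.1, ?_⟩
    rw [Metric.mem_closedBall, dist_zero_right]
    exact (not_le.1 hcon).le
  obtain ⟨P, hP⟩ := exists_proj_of_isRet hQ
  obtain ⟨φ, hφ⟩ := hH2.exists_hflow hQ.isClosed hP
  refine ⟨H, fun s z => φ (s, z), hH1, ?_, fun s hs z hz => ?_⟩
  · have h1 := hφ.isFlow hP hHs
    refine ⟨fun z _ => hφ.zero z, fun z hz s hs => ?_⟩
    rw [← cotangent_eq_Cot] at hz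
    obtain ⟨h2, v, h3, h4, h5⟩ := (h1 z hz).2 s hs
    rw [← cotangent_eq_Cot]
    refine ⟨h2, v, ?_, h3, fun u hu => ?_⟩
    · rw [← tan_eq_Tan]
      exact h4
    · rw [← tan_eq_Tan] at hu
      exact h5 u hu
  · refine (hφ.uniq (fun s => ι (s, z)) (fun s hs => ?_) s hs).symm
    have hzc : ι (s, z) ∈ cotangent Q := by
      rw [cotangent_eq_Cot]
      exact hmem s z hz
    refine ⟨hzc, ?_⟩
    have hd : ∀ s, HasDerivAt (fun r : ℝ => ι (r, z)) (fderiv ℝ ι (s, z) (1, 0)) s := fun s =>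
      (hι.differentiable (by simp) (s, z)).hasFDerivAt.comp_hasDerivAt s
        ((hasDerivAt_id s).prodMk (hasDerivAt_const _ _))
    have hat : fderiv ℝ ι (s, z) (1, 0) ∈ tan (cotangent Q) (ι (s, z)) := by
      refine ⟨fun t => ι (s + t, z), hι.comp ((contDiff_const.add contDiff_id).prodMk
        contDiff_const), fun t => ?_, by simp, ?_⟩
      · rw [cotangent_eq_Cot]
        exact hmem _ z hz
      · have h1 : HasDerivAt (fun t : ℝ => s + t) 1 0 := (hasDerivAt_id (0 : ℝ)).const_add s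
        have h2 := hd s
        rw [← add_zero s] at h2
        have h3 := h2.scomp (0 : ℝ) h1
        simpa [Function.comp_def] using h3
    have heq : fderiv ℝ ι (s, z) (1, 0) = vf P (ι (s, z)) (dH H (s, ι (s, z))) := by
      refine sub_eq_zero.1 (hP.nondeg hzc (tan_sub_cotangent hP hzc ?_ hat (hP.vf_tan hzc _))
        fun w hw => ?_)
      · intro a ha b hb
        rw [tan_eq_Tan, hQ.mem_Tan hzc.1] at ha hb ⊢
        exact (Tn r _).sub_mem ha hb
      · rw [om_sub_left, hP.vf_om hzc _ hw, ← dH_eq hHs, om_swap, sub_neg_eq_add]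
        have h1 : fderiv ℝ (fun y => H (s, y)) (ι (s, z)) =
            fderiv ℝ (fun y => genH ι f m (s, y)) (ι (s, z)) := by
          refine Filter.EventuallyEq.fderiv_eq ?_
          have h2 : ∀ᶠ y : E × E in 𝓝 (ι (s, z)), ‖y.2‖ < |C| + 1 := by
            refine (continuous_snd.norm.tendsto (ι (s, z))).eventually_lt_const ?_
            have := hC s hs z hz
            linarith [le_abs_self C]
          filter_upwards [h2] with y hy
          have : χ y.2 = 1 := χ.one_of_mem_closedBall (by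
            rw [Metric.mem_closedBall, dist_zero_right]; exact hy.le)
          simp [hH, this]
        rw [h1, genH_fderiv hι hf hms (hmι s z hz) rfl
          (fun r => hex r z hz _ (hmv s z hz w))]
        ring
    rw [← heq]
    exact (hd s).hasDerivWithinAt

end Vale.Agent.P220.R2.H481
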