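import Vale.Agent.P255.Ode

/-!
# Global smooth flows of bounded Lipschitz vector fields
-/

open Set Filter Topology
open scoped ContDiff Real NNReal

namespace Vale.Agent.P220.R2.H481

variable {E : Type} [NormedAddCommGroup E] [NormedSpace ℝ E]

theorem curve_unique {Y : E → E} {K : ℝ≥0} (hK : LipschitzWith K Y) {f g : ℝ → E}
    (hf : ∀ t, HasDerivAt f (Y (f t)) t) (hg : ∀ t, HasDerivAt g (Y (g t)) t) {t₀ : ℝ}
    (h : f t₀ = g t₀) : f = g :=
  ODE_solution_unique_univ (v := fun _ => Y) (s := fun _ => univ) (K := K)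
    (fun _ => hK.lipschitzOnWith) (fun t => ⟨hf t, mem_univ _⟩) (fun t => ⟨hg t, mem_univ _⟩) h

theorem curve_unique_Ioo {Y : E → E} {K : ℝ≥0} (hK : LipschitzWith K Y) {f g : ℝ → E} {a b : ℝ}
    (hf : ∀ t ∈ Ioo a b, HasDerivAt f (Y (f t)) t) (hg : ∀ t ∈ Ioo a b, HasDerivAt g (Y (g t)) t)
    {t₀ : ℝ} (ht₀ : t₀ ∈ Ioo a b) (h : f t₀ = g t₀) : EqOn f g (Ioo a b) :=
  ODE_solution_unique_of_mem_Ioo (v := fun _ => Y) (s := fun _ => univ) (K := K)
    (fun _ _ => hK.lipschitzOnWith) ht₀ (fun t ht => ⟨hf t ht, mem_univ _⟩)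
    (fun t ht => ⟨hg t ht, mem_univ _⟩) h

theorem exists_global_curve [CompleteSpace E] {Y : E → E} {C K : ℝ≥0} (hC : ∀ x, ‖Y x‖ ≤ C)
    (hK : LipschitzWith K Y) (x₀ : E) :
    ∃ α : ℝ → E, α 0 = x₀ ∧ ∀ t, HasDerivAt α (Y (α t)) t := by
  have key : ∀ n : ℕ, ∃ α : ℝ → E, α 0 = x₀ ∧ ∀ t ∈ Ioo (-(n : ℝ)) n, HasDerivAt α (Y (α t)) t := by
    intro n
    have hPL : IsPicardLindelof (fun _ => Y) (tmin := -(n : ℝ)) (tmax := n)
        ⟨0, by constructor <;> simp⟩ x₀ (C * n) 0 C K := by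
      refine ⟨fun t ht => hK.lipschitzOnWith, fun y _ => continuousOn_const,
        fun t ht y _ => hC y, ?_⟩
      simp
    obtain ⟨α, h1, h2⟩ := hPL.exists_eq_forall_mem_Icc_hasDerivWithinAt₀
    exact ⟨α, h1, fun t ht => (h2 t (Ioo_subset_Icc_self ht)).hasDerivAt (Icc_mem_nhds ht.1 ht.2)⟩
  choose α h0 h1 using key
  have hag : ∀ m n : ℕ, 0 < m → m ≤ n → EqOn (α m) (α n) (Ioo (-(m : ℝ)) m) := by
    intro m n hm hmn
    have hmn' : (m : ℝ) ≤ n := by exact_mod_cast hmn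
    have hm' : (0 : ℝ) < m := by exact_mod_cast hm
    refine curve_unique_Ioo hK (h1 m) (fun t ht => h1 n t ⟨?_, ?_⟩) (t₀ := 0) ⟨?_, ?_⟩
      ((h0 m).trans (h0 n).symm)
    · linarith [ht.1]
    · linarith [ht.2]
    · linarith
    · linarith
  refine ⟨fun t => α (⌈|t|⌉₊ + 1) t, h0 _, fun t => ?_⟩
  set N := ⌈|t|⌉₊ + 2 with hN
  have ht : |t| < (N : ℝ) - 1 := by
    have := Nat.le_ceil |t|
    rw [hN]
    push_cast
    linarith
  have he : (fun s => α (⌈|s|⌉₊ + 1) s) =ᶠ[𝓝 t] α N := by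
    have h2 : ∀ᶠ s : ℝ in 𝓝 t, |s| < (N : ℝ) - 1 :=
      continuous_abs.continuousAt.eventually_lt continuousAt_const ht
    filter_upwards [h2] with s hs
    refine hag _ _ (by omega) ?_ ?_
    · have h3 : ⌈|s|⌉₊ ≤ N - 1 := by
        apply Nat.ceil_le.2
        rw [Nat.cast_sub (by omega)]
        push_cast
        exact hs.le
      omega
    · have h3 := Nat.le_ceil |s|
      rw [mem_Ioo, ← abs_lt]
      push_cast
      linarith
  have h2 := h1 N t (by rw [mem_Ioo, ← abs_lt]; linarith)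
  have h3 : α (⌈|t|⌉₊ + 1) t = α N t := he.self_of_nhds
  show HasDerivAt _ (Y (α (⌈|t|⌉₊ + 1) t)) t
  rw [h3]
  exact h2.congr_of_eventuallyEq he

/-- a global smooth flow of a vector field -/
structure IsGF (Y : E → E) (φ : ℝ × E → E) : Prop where
  smooth : ContDiff ℝ ∞ φ
  zero : ∀ x, φ (0, x) = x
  deriv : ∀ t x, HasDerivAt (fun s => φ (s, x)) (Y (φ (t, x))) t
  add : ∀ s t x, φ (s + t, x) = φ (s, φ (t, x))
  uniq : ∀ f : ℝ → E, (∀ t, HasDerivAt f (Y (f t)) t) → ∀ t, f t = φ (t, f 0)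

theorem exists_gf [FiniteDimensional ℝ E] {Y : E → E} (hY : ContDiff ℝ ∞ Y) {C K : ℝ≥0}
    (hC : ∀ x, ‖Y x‖ ≤ C) (hK : LipschitzWith K Y) : ∃ φ, IsGF Y φ := by
  have : CompleteSpace E := FiniteDimensional.complete ℝ E
  have key := fun x => exists_global_curve hC hK x
  choose α h0 h1 using key
  have hadd : ∀ s t x, α x (s + t) = α (α x t) s := by
    intro s t x
    have h2 : ∀ s, HasDerivAt (fun s => α x (s + t)) (Y (α x (s + t))) s := fun s =>
      (h1 x (s + t)).comp_add_const s t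
    have h3 := curve_unique hK h2 (h1 (α x t)) (t₀ := 0) (by rw [zero_add, h0])
    exact congrFun h3 s
  have hsm0 : ∀ x, ∃ ε > 0, ∃ W ∈ 𝓝 x, ∀ t ∈ Ioo (-ε) ε, ∀ y ∈ W,
      ContDiffAt ℝ ∞ (fun p : ℝ × E => α p.2 p.1) (t, y) := by
    intro x
    obtain ⟨ε, hε, W, hW, hxW, Φ, hΦ0, hΦ1, hΦ2⟩ :=
      Vale.Agent.P255.exists_flow_smooth Y univ isOpen_univ hY.contDiffOn x (mem_univ x)
    refine ⟨ε, hε, W, hW.mem_nhds hxW, fun t ht y hy => ?_⟩
    have hopen : IsOpen (Ioo (-ε) ε ×ˢ W) := isOpen_Ioo.prod hW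
    have he : EqOn (fun p : ℝ × E => α p.2 p.1) (fun p => Φ p.1 p.2) (Ioo (-ε) ε ×ˢ W) := by
      rintro ⟨s, z⟩ ⟨hs, hz⟩
      have := curve_unique_Ioo hK (fun t _ => h1 z t) (fun t ht => (hΦ1 z hz t ht).2)
        (t₀ := 0) ⟨by linarith, hε⟩ (by rw [h0, hΦ0 z hz])
      exact this hs
    have hmem : Ioo (-ε) ε ×ˢ W ∈ 𝓝 (t, y) := hopen.mem_nhds ⟨ht, hy⟩
    exact (hΦ2.contDiffAt hmem).congr_of_eventuallyEq (he.eventuallyEq_of_mem hmem)
  -- smoothness at all times
  have hsm : ∀ x t, ContDiffAt ℝ ∞ (fun p : ℝ × E => α p.2 p.1) (t, x) := by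
    intro x T
    -- uniform ε on the compact curve
    obtain ⟨R, hR⟩ : ∃ R : ℝ, 0 ≤ R ∧ |T| ≤ R := ⟨|T|, abs_nonneg _, le_rfl⟩
    have hcont : Continuous (α x) := continuous_iff_continuousAt.2 fun t => (h1 x t).continuousAt
    have hK2 : IsCompact (α x '' Icc (-R) R) := isCompact_Icc.image hcont
    obtain ⟨ε, hε, hε2⟩ : ∃ ε > 0, ∀ y ∈ α x '' Icc (-R) R, ∀ t ∈ Ioo (-ε) ε,
        ContDiffAt ℝ ∞ (fun p : ℝ × E => α p.2 p.1) (t, y) := by
      choose e he W hW hs using hsm0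
      obtain ⟨s, hs1, hs2⟩ := hK2.elim_nhds_subcover W (fun y _ => hW y)
      rcases s.eq_empty_or_nonempty with hemp | hne
      · subst hemp
        simp only [Finset.notMem_empty, iUnion_of_empty, iUnion_empty, subset_empty_iff] at hs2
        have : α x 0 ∈ α x '' Icc (-R) R := mem_image_of_mem _ ⟨by linarith, by linarith⟩
        rw [hs2] at this
        exact absurd this (notMem_empty _)
      · refine ⟨s.inf' hne e, (Finset.lt_inf'_iff hne).2 fun i _ => he i, fun y hy t ht => ?_⟩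
        obtain ⟨i, hi, hi2⟩ := mem_iUnion₂.1 (hs2 hy)
        have h3 : s.inf' hne e ≤ e i := Finset.inf'_le e hi
        exact hs i t ⟨by linarith [ht.1], by linarith [ht.2]⟩ y hi2
    -- induction over steps
    obtain ⟨n, hn⟩ := exists_nat_gt (|T| / ε)
    have hn0 : (0 : ℝ) < n := lt_of_le_of_lt (div_nonneg (abs_nonneg _) hε.le) hn
    have hstep : |T / n| < ε := by
      rw [abs_div, abs_of_pos hn0, div_lt_iff₀ hn0]
      rw [div_lt_iff₀ hε] at hn
      linarith [mul_comm ε (n : ℝ)]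
    have hind : ∀ j : ℕ, j ≤ n → ContDiffAt ℝ ∞ (fun p : ℝ × E => α p.2 p.1)
        (j * (T / n), x) := by
      intro j
      induction j with
      | zero =>
        intro _
        have : ((0 : ℕ) : ℝ) * (T / n) = 0 := by simp
        rw [this]
        exact hε2 x ⟨0, ⟨by linarith, by linarith⟩, h0 x⟩ 0 ⟨by linarith, hε⟩
      | succ j ih =>
        intro hj
        have ih' := ih (by omega)
        have hm : α x (j * (T / n)) ∈ α x '' Icc (-R) R := by
          refine mem_image_of_mem _ (abs_le.1 ?_)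
          rw [abs_mul, abs_div, Nat.abs_cast, abs_of_pos hn0]
          have h4 : (j : ℝ) ≤ n := by exact_mod_cast (by omega : j ≤ n)
          calc (j : ℝ) * (|T| / n) ≤ n * (|T| / n) :=
                mul_le_mul_of_nonneg_right h4 (by positivity)
            _ = |T| := by field_simp
            _ ≤ R := hR.2
        have h5 := hε2 _ hm (T / n) (abs_lt.1 hstep)
        have h6 : (fun p : ℝ × E => α p.2 p.1) =
            (fun p : ℝ × E => α p.2 p.1) ∘ fun p : ℝ × E =>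
              (T / n, α p.2 (p.1 - T / n)) := by
          funext p
          show α p.2 p.1 = α (α p.2 (p.1 - T / n)) (T / n)
          rw [← hadd]
          congr 1
          ring
        rw [h6]
        have h7 : ((j + 1 : ℕ) : ℝ) * (T / n) - T / n = j * (T / n) := by push_cast; ring
        have h8 : ContDiffAt ℝ ∞ (fun p : ℝ × E => (T / n, α p.2 (p.1 - T / n)))
            (((j + 1 : ℕ) : ℝ) * (T / n), x) := by
          refine contDiffAt_const.prodMk ?_
          have h9 : ContDiffAt ℝ ∞ (fun p : ℝ × E => ((p.1 - T / n, p.2) : ℝ × E))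
              (((j + 1 : ℕ) : ℝ) * (T / n), x) :=
            (contDiffAt_fst.sub contDiffAt_const).prodMk contDiffAt_snd
          refine ContDiffAt.comp (g := fun p : ℝ × E => α p.2 p.1)
            (((j + 1 : ℕ) : ℝ) * (T / n), x) ?_ h9
          show ContDiffAt ℝ ∞ (fun p : ℝ × E => α p.2 p.1)
            (((j + 1 : ℕ) : ℝ) * (T / n) - T / n, x)
          rw [h7]
          exact ih'
        refine ContDiffAt.comp (g := fun p : ℝ × E => α p.2 p.1)
          (((j + 1 : ℕ) : ℝ) * (T / n), x) ?_ h8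
        show ContDiffAt ℝ ∞ (fun p : ℝ × E => α p.2 p.1)
          (T / n, α x (((j + 1 : ℕ) : ℝ) * (T / n) - T / n))
        rw [h7]
        exact h5
    have := hind n le_rfl
    rwa [show (n : ℝ) * (T / n) = T by field_simp] at this
  refine ⟨fun p => α p.2 p.1, contDiff_iff_contDiffAt.2 fun p => hsm p.2 p.1, h0,
    fun t x => h1 x t, fun s t x => hadd s t x, fun f hf t => ?_⟩
  have h3 := curve_unique hK hf (h1 (f 0)) (t₀ := 0) (by rw [h0])
  exact congrFun h3 t

/-- vector fields that are constant outside a compact set have global smooth flows -/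
theorem exists_gf_of_compactSupport [FiniteDimensional ℝ E] {Y : E → E} (hY : ContDiff ℝ ∞ Y)
    (c : E) (hc : HasCompactSupport fun x => Y x - c) :
    (∃ φ, IsGF Y φ) ∧ ∃ K : ℝ≥0, LipschitzWith K Y := by
  have h1 : ContDiff ℝ ∞ fun x => Y x - c := hY.sub contDiff_const
  obtain ⟨C, hC⟩ := hc.exists_bound_of_continuous h1.continuous
  obtain ⟨K, hK⟩ := ContDiff.lipschitzWith_of_hasCompactSupport hc h1 (by simp)
  have hK' : LipschitzWith K Y := by
    refine LipschitzWith.of_dist_le_mul fun x y => ?_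
    have := hK.dist_le_mul x y
    rwa [dist_eq_norm, sub_sub_sub_cancel_right, ← dist_eq_norm] at this
  have hb : ∀ x, ‖Y x‖ ≤ (Real.toNNReal (C + ‖c‖) : ℝ≥0) := by
    intro x
    refine le_trans ?_ (Real.le_coe_toNNReal _)
    calc ‖Y x‖ = ‖(Y x - c) + c‖ := by rw [sub_add_cancel]
      _ ≤ ‖Y x - c‖ + ‖c‖ := norm_add_le _ _
      _ ≤ C + ‖c‖ := by linarith [hC x]
  exact ⟨exists_gf hY hb hK', K, hK'⟩

namespace IsGF

variable {Y : E → E} {φ : ℝ × E → E}

theorem neg_cancel (h : IsGF Y φ) (t : ℝ) (x : E) : φ (-t, φ (t, x)) = x := by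
  rw [← h.add, neg_add_cancel, h.zero]

theorem cancel_neg (h : IsGF Y φ) (t : ℝ) (x : E) : φ (t, φ (-t, x)) = x := by
  rw [← h.add, add_neg_cancel, h.zero]

theorem continuous_curve (h : IsGF Y φ) (x : E) : Continuous fun t => φ (t, x) :=
  h.smooth.continuous.comp (by fun_prop)

end IsGF

end Vale.Agent.P220.R2.H481
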