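import Vale.Agent.P220.R2.H481.Ham

/-!
# Flows of Hamiltonians on `T*Q`
-/

open Set Filter Topology
open scoped ContDiff RealInnerProductSpace NNReal

namespace Vale.Agent.P220.R2.H481

set_option linter.unusedSectionVars false

variable {E : Type} [NormedAddCommGroup E] [InnerProductSpace ℝ E] [FiniteDimensional ℝ E]
  {n : ℕ} {Q : Set E} {P : E → E →L[ℝ] E}

theorem cotangent_closed (hQ : IsClosed Q) (hP : IsProj Q P) : IsClosed (cotangent Q) := by
  have e : cotangent Q = {z : E × E | z.1 ∈ Q} ∩ {z | P z.1 z.2 = z.2} := by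
    ext z
    constructor
    · exact fun h => ⟨h.1, hP.id _ h.1 _ h.2⟩
    · rintro ⟨h1, h2⟩
      refine ⟨h1, ?_⟩
      have h3 : P z.1 z.2 = z.2 := h2
      rw [← h3]
      exact hP.mem _ h1 _
  rw [e]
  exact (hQ.preimage continuous_fst).inter (isClosed_eq
    ((hP.smooth.continuous.comp continuous_fst).clm_apply continuous_snd) continuous_snd)

/-- the differential of `H s` -/
noncomputable def dH (H : ℝ × (E × E) → ℝ) (p : ℝ × (E × E)) : E × E →L[ℝ] ℝ :=
  (fderiv ℝ H p).comp (ContinuousLinearMap.inr ℝ ℝ (E × E))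

theorem dH_eq {H : ℝ × (E × E) → ℝ} (hH : ContDiff ℝ ∞ H) (s : ℝ) (z : E × E) :
    fderiv ℝ (fun y => H (s, y)) z = dH H (s, z) := by
  have h1 := (hH.differentiable (by simp) (s, z)).hasFDerivAt
  have h2 : HasFDerivAt (fun y : E × E => (s, y)) (ContinuousLinearMap.inr ℝ ℝ (E × E)) z :=
    hasFDerivAt_prodMk_right s z
  exact (h1.comp z h2).fderiv

theorem dH_smooth {H : ℝ × (E × E) → ℝ} (hH : ContDiff ℝ ∞ H) : ContDiff ℝ ∞ (dH H) :=
  (hH.fderiv_right (m := ∞) (by simp)).clm_comp contDiff_const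

theorem vf_smooth (hP : ContDiff ℝ ∞ P) {H : ℝ × (E × E) → ℝ} (hH : ContDiff ℝ ∞ H) :
    ContDiff ℝ ∞ fun p : ℝ × (E × E) => vf P p.2 (dH H p) := by
  have hd := dH_smooth hH
  have hx1 : ContDiff ℝ ∞ fun p : ℝ × (E × E) => p.2.1 := contDiff_fst.comp contDiff_snd
  have hy1 : ContDiff ℝ ∞ fun p : ℝ × (E × E) => p.2.2 := contDiff_snd.comp contDiff_snd
  have hPx : ContDiff ℝ ∞ fun p : ℝ × (E × E) => P p.2.1 := hP.comp hx1
  have hDP : ContDiff ℝ ∞ fun p : ℝ × (E × E) => fderiv ℝ P p.2.1 :=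
    (hP.fderiv_right (m := ∞) (by simp)).comp hx1
  have hgr : ContDiff ℝ ∞ (grad : (E →L[ℝ] ℝ) → E) := (grad (E := E)).contDiff
  have hinr : ContDiff ℝ ∞ fun p : ℝ × (E × E) =>
      (dH H p).comp (ContinuousLinearMap.inr ℝ E E) := hd.clm_comp contDiff_const
  have hinl : ContDiff ℝ ∞ fun p : ℝ × (E × E) =>
      (dH H p).comp (ContinuousLinearMap.inl ℝ E E) := hd.clm_comp contDiff_const
  have hvx : ContDiff ℝ ∞ fun p : ℝ × (E × E) => vfx P p.2 (dH H p) :=
    hPx.clm_apply (hgr.comp hinr)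
  have hfl : ContDiff ℝ ∞
      (ContinuousLinearMap.flip : (E →L[ℝ] E →L[ℝ] E) → (E →L[ℝ] E →L[ℝ] E)) := by
    have h0 := LinearIsometryEquiv.contDiff (𝕜 := ℝ) (E := E →L[ℝ] E →L[ℝ] E)
      (F := E →L[ℝ] E →L[ℝ] E) (n := ∞) (ContinuousLinearMap.flipₗᵢ ℝ E E E)
    exact h0
  have hflip : ContDiff ℝ ∞ fun p : ℝ × (E × E) => (fderiv ℝ P p.2.1).flip p.2.2 :=
    (hfl.comp hDP).clm_apply hy1
  exact hvx.prodMk (((hDP.clm_apply hvx).clm_apply hy1).sub (hPx.clm_apply (hgr.comp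
    (hinl.add (hinr.clm_comp hflip)))))

/-- `φ` is the flow of `H` on `T*Q`, for `0 ≤ s ≤ 1` -/
structure HFlow (Q : Set E) (P : E → E →L[ℝ] E) (H : ℝ × (E × E) → ℝ)
    (φ : ℝ × (E × E) → E × E) : Prop where
  smooth : ContDiff ℝ ∞ φ
  zero : ∀ z, φ (0, z) = z
  mem : ∀ z ∈ cotangent Q, ∀ s ∈ Icc (0 : ℝ) 1, φ (s, z) ∈ cotangent Q
  deriv : ∀ z ∈ cotangent Q, ∀ s ∈ Icc (0 : ℝ) 1,
    HasDerivAt (fun r => φ (r, z)) (vf P (φ (s, z)) (dH H (s, φ (s, z)))) s
  uniq : ∀ γ : ℝ → E × E, (∀ s ∈ Icc (0 : ℝ) 1, γ s ∈ cotangent Q ∧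
    HasDerivWithinAt γ (vf P (γ s) (dH H (s, γ s))) (Icc 0 1) s) →
    ∀ s ∈ Icc (0 : ℝ) 1, γ s = φ (s, γ 0)

theorem tan_smul' {F : Type} [NormedAddCommGroup F] [NormedSpace ℝ F] {K : Set F} {x v : F}
    (c : ℝ) (hv : v ∈ tan K x) : c • v ∈ tan K x := by
  obtain ⟨γ, h1, h2, h3, h4⟩ := hv
  refine ⟨fun t => γ (c * t), h1.comp (contDiff_const.mul contDiff_id), fun t => h2 _,
    by simpa using h3, ?_⟩
  have h5 : HasDerivAt (fun t : ℝ => c * t) c 0 := by
    simpa using (hasDerivAt_id (0 : ℝ)).const_mul c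
  have h6 : HasDerivAt γ v (c * 0) := by rwa [mul_zero]
  exact h6.scomp 0 h5

theorem IsHam.exists_hflow (hQ : IsClosed Q) (hP : IsProj Q P) {H : ℝ × (E × E) → ℝ}
    (hH : IsHam Q H) : ∃ φ, HFlow Q P H φ := by
  obtain ⟨K, hK, hK0⟩ := hH.supp
  have hTQ := cotangent_closed hQ hP
  -- the field vanishes outside `K`
  have hvf0 : ∀ s, ∀ z ∈ cotangent Q, z ∉ K → vf P z (dH H (s, z)) = 0 := by
    intro s z hz hzK
    refine hP.vf_eq_zero hz fun w hw => ?_
    have h1 : fderiv ℝ (fun y => H (s, y)) z w = fderiv ℝ (fun _ : E × E => (0 : ℝ)) z w := by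
      refine fderiv_congr_tan (K := cotangent Q) ?_ (differentiableAt_const _) ?_ hw
      · exact (hH.smooth.comp (contDiff_const.prodMk contDiff_id)).differentiable (by simp) z
      · filter_upwards [hK.isClosed.isOpen_compl.mem_nhds hzK] with y hy hyQ
        exact hK0 s y hyQ hy
    rw [← dH_eq hH.smooth, h1]
    simp
  -- cutoffs
  obtain ⟨R, hR⟩ := hK.isBounded.subset_closedBall (0 : E × E)
  have hR1 : 0 < |R| + 1 := by positivity
  let χ : ContDiffBump (0 : E × E) := ⟨|R| + 1, |R| + 2, hR1, by linarith⟩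
  let χ₀ : ContDiffBump (0 : ℝ) := ⟨2, 3, by norm_num, by norm_num⟩
  set Y : ℝ × (E × E) → ℝ × (E × E) := fun p => (1, (χ₀ p.1 * χ p.2) • vf P p.2 (dH H p))
    with hY
  have hYs : ContDiff ℝ ∞ Y := contDiff_const.prodMk
    (((χ₀.contDiff.comp contDiff_fst).mul (χ.contDiff.comp contDiff_snd)).smul
      (vf_smooth hP.smooth hH.smooth))
  have hYc : HasCompactSupport fun p => Y p - (1, 0) := by
    refine HasCompactSupport.of_support_subset_isCompact
      ((isCompact_closedBall (0 : ℝ) 3).prod (isCompact_closedBall (0 : E × E) (|R| + 2))) ?_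
    intro p hp
    rw [Function.mem_support] at hp
    refine ⟨?_, ?_⟩
    · by_contra hc
      refine hp ?_
      have : χ₀ p.1 = 0 := χ₀.zero_of_le_dist (by
        rw [Metric.mem_closedBall, not_le] at hc; exact hc.le)
      simp [hY, this]
    · by_contra hc
      refine hp ?_
      have : χ p.2 = 0 := χ.zero_of_le_dist (by
        rw [Metric.mem_closedBall, not_le] at hc; exact hc.le)
      simp [hY, this]
  obtain ⟨⟨Φ, hΦ⟩, Kl, hKl⟩ := exists_gf_of_compactSupport hYs (1, 0) hYc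
  -- values of `Y` on `T*Q`
  have hYv : ∀ s ∈ Icc (-2 : ℝ) 2, ∀ z ∈ cotangent Q, Y (s, z) = (1, vf P z (dH H (s, z))) := by
    intro s hs z hz
    have h1 : χ₀ s = 1 := χ₀.one_of_mem_closedBall (by
      rw [Metric.mem_closedBall, dist_zero_right, Real.norm_eq_abs, abs_le]; exact hs)
    by_cases hzK : z ∈ K
    · have h2 : χ z = 1 := χ.one_of_mem_closedBall (by
        have := hR hzK
        rw [Metric.mem_closedBall] at this ⊢
        exact this.trans ((le_abs_self R).trans (by linarith)))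
      simp [hY, h1, h2]
    · simp [hY, hvf0 s z hz hzK]
  have hfst : ∀ t p, (Φ (t, p)).1 = p.1 + t := by
    intro t p
    have h1 : ∀ t, HasDerivAt (fun t => (Φ (t, p)).1) 1 t := fun t => (hΦ.deriv t p).fst
    have h2 : ∀ t, HasDerivAt (fun t => (Φ (t, p)).1 - t) 0 t := fun t => by
      simpa using (h1 t).fun_sub (hasDerivAt_id' t)
    have h3 := is_const_of_deriv_eq_zero (fun t => (h2 t).differentiableAt)
      (fun t => (h2 t).deriv) t 0
    rw [hΦ.zero, sub_zero] at h3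
    linarith
  have hinv : ∀ t, ∀ z ∈ cotangent Q, (Φ (t, (0, z))).2 ∈ cotangent Q := by
    intro t z hz
    have h1 := invariant (K := (univ : Set ℝ) ×ˢ cotangent Q) (isClosed_univ.prod hTQ) hYs
      (fun p hp => by
        obtain ⟨γ, g1, g2, g3, g4⟩ := tan_smul' (χ₀ p.1 * χ p.2) (hP.vf_tan hp.2 (dH H p))
        refine ⟨fun t => (p.1 + t, γ t), (contDiff_const.add contDiff_id).prodMk g1,
          fun t => ⟨mem_univ _, g2 t⟩, ?_, ?_⟩
        · refine Prod.ext (add_zero _) g3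
        · exact ((hasDerivAt_id (0 : ℝ)).const_add p.1).prodMk g4)
      (fun t => hΦ.deriv t (0, z)) (by rw [hΦ.zero]; exact ⟨mem_univ _, hz⟩) t
    exact h1.2
  refine ⟨fun q => (Φ (q.1, (0, q.2))).2, ?_, fun z => ?_, fun z hz s _ => hinv s z hz,
    fun z hz s hs => ?_, fun γ hγ s hs => ?_⟩
  · exact contDiff_snd.comp (hΦ.smooth.comp (contDiff_fst.prodMk
      (contDiff_const.prodMk contDiff_snd)))
  · show (Φ (0, (0, z))).2 = z
    rw [hΦ.zero]
  · have h1 := (hΦ.deriv s (0, z)).snd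
    have h2 : Φ (s, (0, z)) = (s, (Φ (s, (0, z))).2) := by
      refine Prod.ext ?_ rfl
      rw [hfst, zero_add]
    rw [h2, hYv s ⟨by linarith [hs.1], by linarith [hs.2]⟩ _ (hinv s z hz)] at h1
    exact h1
  · have h1 : ∀ s ∈ Icc (0 : ℝ) 1, HasDerivWithinAt (fun s => (s, γ s)) (Y (s, γ s))
        (Icc 0 1) s := by
      intro s hs
      rw [hYv s ⟨by linarith [hs.1], by linarith [hs.2]⟩ _ (hγ s hs).1]
      exact (hasDerivWithinAt_id s _).prodMk (hγ s hs).2
    have h2 := ODE_solution_unique_of_mem_Icc_right (v := fun _ => Y) (s := fun _ => univ)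
      (K := Kl) (a := 0) (b := 1) (f := fun s => (s, γ s)) (g := fun s => Φ (s, (0, γ 0)))
      (fun _ _ => hKl.lipschitzOnWith) (fun s hs => (h1 s hs).continuousWithinAt)
      (fun s hs => (h1 s (Ico_subset_Icc_self hs)).mono_of_mem_nhdsWithin
        (Icc_mem_nhdsGE_of_mem hs)) (fun _ _ => mem_univ _)
      (hΦ.continuous_curve _).continuousOn (fun s _ => (hΦ.deriv s _).hasDerivWithinAt)
      (fun _ _ => mem_univ _) (by show (0, γ 0) = Φ (0, (0, γ 0)); rw [hΦ.zero])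
    exact congrArg Prod.snd (h2 hs)

theorem HFlow.isFlow {H : ℝ × (E × E) → ℝ} (hP : IsProj Q P) (hH : ContDiff ℝ ∞ H)
    {φ : ℝ × (E × E) → E × E} (h : HFlow Q P H φ) : IsFlow Q H fun s z => φ (s, z) := by
  intro z hz
  refine ⟨h.zero z, fun s hs => ⟨h.mem z hz s hs, _, (h.deriv z hz s hs).hasDerivWithinAt,
    hP.vf_tan (h.mem z hz s hs) _, fun w hw => ?_⟩⟩
  rw [dH_eq hH]
  exact hP.vf_om (h.mem z hz s hs) _ hw

/-- `L` can be moved to `L'` by the flow of a compactly supported Hamiltonian -/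
def Moves (Q : Set E) (P : E → E →L[ℝ] E) (L L' : Set (E × E)) : Prop :=
  ∃ H φ, IsHam Q H ∧ HFlow Q P H φ ∧ (fun z => φ (1, z)) '' L = L'

theorem Moves.hamIsotopicToZero (hP : IsProj Q P) {L : Set (E × E)}
    (h : Moves Q P (zeroSection Q) L) : HamIsotopicToZero Q L := by
  obtain ⟨H, φ, h1, h2, h3⟩ := h
  exact ⟨H, fun s z => φ (s, z), h1, h2.isFlow hP h1.smooth, h3⟩

end Vale.Agent.P220.R2.H481
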