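import Vale.Agent.P220.R2.H481.Proj
import Vale.Agent.P220.R2.H481.Inv
import Vale.Agent.P220.R2.H481.Flow

/-!
# Hamiltonian vector fields on `T*Q` and their flows
-/

open Set Filter Topology
open scoped ContDiff RealInnerProductSpace NNReal

namespace Vale.Agent.P220.R2.H481

set_option linter.unusedSectionVars false

variable {E : Type} [NormedAddCommGroup E] [InnerProductSpace ℝ E] [FiniteDimensional ℝ E]
  {n : ℕ} {Q : Set E} {P : E → E →L[ℝ] E}

/-- the vector representing a linear form -/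
noncomputable def grad : (E →L[ℝ] ℝ) →L[ℝ] E :=
  ∑ i, ((ContinuousLinearMap.apply ℝ ℝ (stdOrthonormalBasis ℝ E i)).smulRight
    (stdOrthonormalBasis ℝ E i))

theorem inner_grad (l : E →L[ℝ] ℝ) (v : E) : ⟪grad l, v⟫ = l v := by
  have h1 : grad l = ∑ i, l (stdOrthonormalBasis ℝ E i) • (stdOrthonormalBasis ℝ E i : E) := by
    simp [grad]
  rw [h1, sum_inner]
  conv_rhs => rw [← (stdOrthonormalBasis ℝ E).sum_repr' v, map_sum]
  refine Finset.sum_congr rfl fun i _ => ?_
  rw [inner_smul_left, map_smul, smul_eq_mul, mul_comm]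
  simp

/-- the component of the Hamiltonian vector field along `Q`, as a function of the differential -/
noncomputable def vfx (P : E → E →L[ℝ] E) (z : E × E) (l : E × E →L[ℝ] ℝ) : E :=
  P z.1 (grad (l.comp (ContinuousLinearMap.inr ℝ E E)))

/-- the Hamiltonian vector field, as a function of the differential `l` of the Hamiltonian -/
noncomputable def vf (P : E → E →L[ℝ] E) (z : E × E) (l : E × E →L[ℝ] ℝ) : E × E :=
  (vfx P z l, fderiv ℝ P z.1 (vfx P z l) z.2 -
    P z.1 (grad (l.comp (ContinuousLinearMap.inl ℝ E E) +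
      (l.comp (ContinuousLinearMap.inr ℝ E E)).comp ((fderiv ℝ P z.1).flip z.2))))

theorem vfx_add (z : E × E) (l l' : E × E →L[ℝ] ℝ) :
    vfx P z (l + l') = vfx P z l + vfx P z l' := by
  simp only [vfx, ContinuousLinearMap.add_comp, map_add]

theorem vfx_smul (z : E × E) (c : ℝ) (l : E × E →L[ℝ] ℝ) :
    vfx P z (c • l) = c • vfx P z l := by
  simp only [vfx, ContinuousLinearMap.smul_comp, map_smul]

theorem vf_add (z : E × E) (l l' : E × E →L[ℝ] ℝ) : vf P z (l + l') = vf P z l + vf P z l' := by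
  refine Prod.ext (vfx_add z l l') ?_
  simp only [vf, vfx_add, ContinuousLinearMap.add_comp, map_add, add_apply,
    Prod.snd_add]
  abel

theorem vf_smul (z : E × E) (c : ℝ) (l : E × E →L[ℝ] ℝ) : vf P z (c • l) = c • vf P z l := by
  refine Prod.ext (vfx_smul z c l) ?_
  simp only [vf, vfx_smul, ContinuousLinearMap.smul_comp, map_smul, smul_apply,
    Prod.smul_snd, smul_sub, map_add, smul_add]

theorem IsProj.sq (hP : IsProj Q P) {q : E} (hq : q ∈ Q) (v : E) : P q (P q v) = P q v :=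
  hP.id q hq _ (hP.mem q hq v)

/-- the second fundamental form is orthogonal to the tangent space -/
theorem IsProj.second (hP : IsProj Q P) {q a v w : E} (hq : q ∈ Q) (ha : a ∈ tan Q q)
    (hv : v ∈ tan Q q) (hw : w ∈ tan Q q) : ⟪fderiv ℝ P q a v, w⟫ = 0 := by
  obtain ⟨γ, h1, h2, h3, h4⟩ := ha
  have hd : HasDerivAt (fun t => P (γ t)) (fderiv ℝ P q a) 0 := by
    have := (hP.smooth.differentiable (by simp) (γ 0)).hasFDerivAt.comp_hasDerivAt 0 h4
    rwa [h3] at this
  have e1 : HasDerivAt (fun t => P (γ t) (P (γ t) v)) (fderiv ℝ P q a (P q v) +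
      P q (fderiv ℝ P q a v)) 0 := by
    have h5 : HasDerivAt (fun t => P (γ t) v) (fderiv ℝ P q a v) 0 := by
      have := hd.clm_apply (hasDerivAt_const (0 : ℝ) v)
      simpa using this
    have h6 := hd.clm_apply h5
    simpa [h3] using h6
  have e2 : HasDerivAt (fun t => P (γ t) (P (γ t) v)) (fderiv ℝ P q a v) 0 := by
    have h5 : HasDerivAt (fun t => P (γ t) v) (fderiv ℝ P q a v) 0 := by
      have := hd.clm_apply (hasDerivAt_const (0 : ℝ) v)
      simpa using this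
    have h6 : (fun t => P (γ t) (P (γ t) v)) = fun t => P (γ t) v :=
      funext fun t => hP.sq (h2 t) v
    rwa [h6]
  have e3 := e1.unique e2
  rw [hP.id q hq v hv] at e3
  have e4 : P q (fderiv ℝ P q a v) = 0 := by
    have := e3
    rwa [add_eq_left] at this
  have e5 : ⟪fderiv ℝ P q a v, w⟫ = ⟪fderiv ℝ P q a v, P q w⟫ := by rw [hP.id q hq w hw]
  rw [e5, ← hP.symm q hq, e4, inner_zero_left]

/-- the components of a vector tangent to `T*Q` -/
theorem IsProj.tan_cotangent (hP : IsProj Q P) {z w : E × E}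
    (hw : w ∈ tan (cotangent Q) z) :
    w.1 ∈ tan Q z.1 ∧ w.2 = fderiv ℝ P z.1 w.1 z.2 + P z.1 w.2 := by
  obtain ⟨γ, h1, h2, h3, h4⟩ := hw
  have g1 : HasDerivAt (fun t => (γ t).1) w.1 0 := h4.fst
  have g2 : HasDerivAt (fun t => (γ t).2) w.2 0 := h4.snd
  refine ⟨⟨fun t => (γ t).1, contDiff_fst.comp h1, fun t => (h2 t).1, congrArg Prod.fst h3, g1⟩, ?_⟩
  have hd : HasDerivAt (fun t => P (γ t).1) (fderiv ℝ P z.1 w.1) 0 := by
    have := (hP.smooth.differentiable (by simp) (γ 0).1).hasFDerivAt.comp_hasDerivAt 0 g1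
    rwa [h3] at this
  have h5 := hd.clm_apply g2
  have h6 : (fun t => P (γ t).1 (γ t).2) = fun t => (γ t).2 :=
    funext fun t => hP.id _ (h2 t).1 _ (h2 t).2
  rw [h6] at h5
  have h7 := g2.unique h5
  rwa [h3] at h7

/-- vectors tangent to `T*Q` -/
theorem IsProj.mem_tan_cotangent (hP : IsProj Q P) {z : E × E} (hz : z ∈ cotangent Q) {a : E}
    (ha : a ∈ tan Q z.1) (b : E) :
    (a, fderiv ℝ P z.1 a z.2 + P z.1 b) ∈ tan (cotangent Q) z := by
  obtain ⟨γ, h1, h2, h3, h4⟩ := ha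
  refine ⟨fun t => (γ t, P (γ t) (z.2 + t • b)), ?_, fun t => ⟨h2 t, hP.mem _ (h2 t) _⟩, ?_, ?_⟩
  · exact h1.prodMk ((hP.smooth.comp h1).clm_apply
      (contDiff_const.add (contDiff_id.smul contDiff_const)))
  · refine Prod.ext h3 ?_
    simp only [h3, zero_smul, add_zero]
    exact hP.id _ hz.1 _ hz.2
  · have hd : HasDerivAt (fun t => P (γ t)) (fderiv ℝ P z.1 a) 0 := by
      have := (hP.smooth.differentiable (by simp) (γ 0)).hasFDerivAt.comp_hasDerivAt 0 h4
      rwa [h3] at this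
    have g2 : HasDerivAt (fun t : ℝ => z.2 + t • b) b 0 := by
      have := ((hasDerivAt_id (0 : ℝ)).smul_const b).const_add z.2
      simpa using this
    have h5 := hd.clm_apply g2
    simp only [h3, zero_smul, add_zero] at h5
    exact h4.prodMk h5

theorem IsProj.vf_tan (hP : IsProj Q P) {z : E × E} (hz : z ∈ cotangent Q)
    (l : E × E →L[ℝ] ℝ) : vf P z l ∈ tan (cotangent Q) z := by
  have h1 := hP.mem_tan_cotangent hz (a := vfx P z l) (hP.mem _ hz.1 _)
    (-(grad (l.comp (ContinuousLinearMap.inl ℝ E E) +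
      (l.comp (ContinuousLinearMap.inr ℝ E E)).comp ((fderiv ℝ P z.1).flip z.2))))
  rw [map_neg, ← sub_eq_add_neg] at h1
  exact h1

theorem IsProj.vf_om (hP : IsProj Q P) {z w : E × E} (hz : z ∈ cotangent Q)
    (l : E × E →L[ℝ] ℝ) (hw : w ∈ tan (cotangent Q) z) : om (vf P z l) w = - l w := by
  obtain ⟨h1, h2⟩ := hP.tan_cotangent hw
  have e1 : ⟪fderiv ℝ P z.1 (vfx P z l) z.2, w.1⟫ = 0 :=
    hP.second hz.1 (hP.mem _ hz.1 _) hz.2 h1
  have e2 : ⟪P z.1 (grad (l.comp (ContinuousLinearMap.inl ℝ E E) +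
      (l.comp (ContinuousLinearMap.inr ℝ E E)).comp ((fderiv ℝ P z.1).flip z.2))), w.1⟫ =
      l (w.1, 0) + l (0, fderiv ℝ P z.1 w.1 z.2) := by
    rw [hP.symm _ hz.1, hP.id _ hz.1 _ h1, inner_grad]
    rfl
  have e3 : ⟪w.2, vfx P z l⟫ = l (0, P z.1 w.2) := by
    rw [vfx, ← hP.symm _ hz.1, real_inner_comm, inner_grad]
    rfl
  have e4 : w = (w.1, 0) + (0, fderiv ℝ P z.1 w.1 z.2) + (0, P z.1 w.2) := by
    refine Prod.ext ?_ ?_
    · simp
    · simpa using h2
  have e5 : l w = l (w.1, 0) + l (0, fderiv ℝ P z.1 w.1 z.2) + l (0, P z.1 w.2) := by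
    conv_lhs => rw [e4]
    rw [map_add, map_add]
  show ⟪(vf P z l).2, w.1⟫ - ⟪w.2, (vf P z l).1⟫ = _
  have e6 : (vf P z l).2 = fderiv ℝ P z.1 (vfx P z l) z.2 -
    P z.1 (grad (l.comp (ContinuousLinearMap.inl ℝ E E) +
      (l.comp (ContinuousLinearMap.inr ℝ E E)).comp ((fderiv ℝ P z.1).flip z.2))) := rfl
  have e7 : (vf P z l).1 = vfx P z l := rfl
  rw [e6, e7, inner_sub_left, e1, e2, e3, e5]
  ring

theorem IsProj.vf_eq_zero (hP : IsProj Q P) {z : E × E} (hz : z ∈ cotangent Q)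
    {l : E × E →L[ℝ] ℝ} (h : ∀ w ∈ tan (cotangent Q) z, l w = 0) : vf P z l = 0 := by
  have hx : vfx P z l = 0 := by
    refine ext_inner_right ℝ fun v => ?_
    rw [vfx, hP.symm _ hz.1, inner_grad, inner_zero_left]
    have h0 : (0 : E) ∈ tan Q z.1 :=
      ⟨fun _ => z.1, contDiff_const, fun _ => hz.1, rfl, hasDerivAt_const _ _⟩
    have := hP.mem_tan_cotangent hz h0 v
    rw [map_zero] at this
    have h1 := h _ this
    simpa using h1
  refine Prod.ext hx ?_
  show fderiv ℝ P z.1 (vfx P z l) z.2 - _ = 0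
  rw [hx, map_zero]
  refine ext_inner_right ℝ fun v => ?_
  rw [zero_apply, zero_sub, inner_neg_left, hP.symm _ hz.1, inner_grad,
    inner_zero_left, neg_eq_zero]
  have h1 := h _ (hP.mem_tan_cotangent hz (hP.mem _ hz.1 v) 0)
  rw [map_zero, add_zero] at h1
  have e4 : (P z.1 v, fderiv ℝ P z.1 (P z.1 v) z.2) = (P z.1 v, 0) +
      (0, fderiv ℝ P z.1 (P z.1 v) z.2) := by simp
  rw [e4, map_add] at h1
  exact h1

end Vale.Agent.P220.R2.H481
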